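import Vale.Agent.P150.GaussIBP

/-!
# The Sherrington–Kirkpatrick Hamiltonian, free energy and maximum

Definitions, the scaling inequality for the centred free energy, and crude growth bounds.
-/

namespace Vale.Agent.P146

open MeasureTheory ProbabilityTheory Finset Real
open Vale.Agent.P150 (gauss PolyGrowth)

/-- Unordered pairs of distinct sites, as increasing pairs. -/
abbrev Edge (n : ℕ) := {p : Fin n × Fin n // p.1 < p.2}

/-- The value `±1` of a spin. -/
def spin (b : Bool) : ℝ := if b then 1 else -1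

lemma abs_spin (b : Bool) : |spin b| = 1 := by cases b <;> simp [spin]

lemma spin_sq (b : Bool) : spin b ^ 2 = 1 := by cases b <;> simp [spin]

variable {n : ℕ}

/-- The Hamiltonian `n^{-1/2} ∑_{i<j} g_{ij} σ_i σ_j`. -/
noncomputable def H (g : Edge n → ℝ) (s : Fin n → Bool) : ℝ :=
  (1 / √(n : ℝ)) * ∑ e, g e * spin (s e.1.1) * spin (s e.1.2)

/-- The free energy `log ∑_σ exp (β H(σ))`. -/
noncomputable def F (β : ℝ) (g : Edge n → ℝ) : ℝ :=
  Real.log (∑ s : Fin n → Bool, Real.exp (β * H g s))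

/-- The maximum of the Hamiltonian. -/
noncomputable def M (g : Edge n → ℝ) : ℝ :=
  univ.sup' univ_nonempty fun s : Fin n → Bool => H g s

/-- The free energy with respect to the uniform average. -/
noncomputable def G (β : ℝ) (g : Edge n → ℝ) : ℝ := F β g - n * Real.log 2

lemma H_smul (s : ℝ) (g : Edge n → ℝ) (σ : Fin n → Bool) : H (s • g) σ = s * H g σ := by
  simp only [H, Pi.smul_apply, smul_eq_mul, Finset.mul_sum]
  exact sum_congr rfl fun e _ => by ring

lemma continuous_H (σ : Fin n → Bool) : Continuous fun g : Edge n → ℝ => H g σ := by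
  unfold H; fun_prop

lemma card_config : (Fintype.card (Fin n → Bool) : ℝ) = 2 ^ n := by simp

lemma sum_exp_pos (β : ℝ) (g : Edge n → ℝ) : 0 < ∑ s : Fin n → Bool, Real.exp (β * H g s) :=
  sum_pos (fun s _ => Real.exp_pos _) univ_nonempty

lemma continuous_G (β : ℝ) : Continuous (G (n := n) β) := by
  unfold G F
  exact ((continuous_finsetSum _ fun s _ => Real.continuous_exp.comp
    (continuous_const.mul (continuous_H s))).log fun g => (sum_exp_pos β g).ne').sub continuous_const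

lemma continuous_M : Continuous (M (n := n)) :=
  Continuous.finset_sup'_apply univ_nonempty fun s _ => continuous_H s

lemma M_smul {s : ℝ} (hs : 0 ≤ s) (g : Edge n → ℝ) : M (s • g) = s * M g := by
  simp only [M, H_smul]
  exact (Finset.apply_sup'_eq_sup'_comp univ_nonempty (fun x : ℝ => s * x)
    fun a b => mul_max_of_nonneg a b hs).symm

lemma G_eq (β : ℝ) (g : Edge n → ℝ) :
    G β g = Real.log (∑ s : Fin n → Bool, (1 / 2 ^ n : ℝ) * Real.exp (β * H g s)) := by
  rw [← Finset.mul_sum, Real.log_mul (by positivity) (sum_exp_pos β g).ne', one_div,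
    Real.log_inv, Real.log_pow, G, F]
  ring

/-- Jensen: the centred free energy is superhomogeneous along rays. -/
lemma G_smul {s : ℝ} (hs : 1 ≤ s) (β : ℝ) (g : Edge n → ℝ) : s * G β g ≤ G β (s • g) := by
  have hpos : 0 < ∑ σ : Fin n → Bool, (1 / 2 ^ n : ℝ) * Real.exp (β * H g σ) :=
    sum_pos (fun σ _ => by positivity) univ_nonempty
  rw [G_eq, G_eq, ← Real.log_rpow hpos]
  refine Real.log_le_log (Real.rpow_pos_of_pos hpos _) ?_
  refine (Real.rpow_arith_mean_le_arith_mean_rpow univ (fun _ => (1 / 2 ^ n : ℝ))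
    (fun σ => Real.exp (β * H g σ)) (fun _ _ => by positivity) ?_
    (fun _ _ => (Real.exp_pos _).le) hs).trans (le_of_eq (sum_congr rfl fun σ _ => ?_))
  · simp
  · rw [← Real.exp_mul, H_smul]; ring_nf

lemma abs_H_le (g : Edge n → ℝ) (σ : Fin n → Bool) : |H g σ| ≤ ∑ e, |g e| := by
  have h1 : |1 / √(n : ℝ)| ≤ 1 := by
    rcases Nat.eq_zero_or_pos n with rfl | hn
    · simp
    · rw [abs_of_nonneg (by positivity), div_le_one (by positivity)]
      exact Real.one_le_sqrt.mpr (by exact_mod_cast hn)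
  rw [H, abs_mul]
  refine (mul_le_of_le_one_left (abs_nonneg _) h1).trans ((abs_sum_le_sum_abs _ _).trans ?_)
  exact le_of_eq (sum_congr rfl fun e _ => by simp [abs_mul, abs_spin])

lemma H_le_M (g : Edge n → ℝ) (σ : Fin n → Bool) : H g σ ≤ M g :=
  le_sup' (fun s : Fin n → Bool => H g s) (mem_univ σ)

lemma abs_G_le (β : ℝ) (g : Edge n → ℝ) : |G β g| ≤ |β| * ∑ e, |g e| := by
  have hb : ∀ σ : Fin n → Bool, |β * H g σ| ≤ |β| * ∑ e, |g e| := fun σ => by
    rw [abs_mul]; exact mul_le_mul_of_nonneg_left (abs_H_le g σ) (abs_nonneg _)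
  have hw : ∑ _σ : Fin n → Bool, (1 / 2 ^ n : ℝ) = 1 := by simp
  rw [G_eq, abs_le]
  constructor
  · rw [Real.le_log_iff_exp_le (sum_pos (fun σ _ => by positivity) univ_nonempty)]
    calc Real.exp (-(|β| * ∑ e, |g e|))
        = ∑ _σ : Fin n → Bool, (1 / 2 ^ n : ℝ) * Real.exp (-(|β| * ∑ e, |g e|)) := by
          rw [← Finset.sum_mul, hw, one_mul]
      _ ≤ _ := sum_le_sum fun σ _ => mul_le_mul_of_nonneg_left
          (Real.exp_le_exp.mpr (abs_le.mp (hb σ)).1) (by positivity)
  · rw [Real.log_le_iff_le_exp (sum_pos (fun σ _ => by positivity) univ_nonempty)]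
    calc _ ≤ ∑ _σ : Fin n → Bool, (1 / 2 ^ n : ℝ) * Real.exp (|β| * ∑ e, |g e|) :=
          sum_le_sum fun σ _ => mul_le_mul_of_nonneg_left
            (Real.exp_le_exp.mpr (abs_le.mp (hb σ)).2) (by positivity)
      _ = _ := by rw [← Finset.sum_mul, hw, one_mul]

lemma G_one_le_M (g : Edge n → ℝ) : G 1 g ≤ M g := by
  rw [G_eq, Real.log_le_iff_le_exp (sum_pos (fun σ _ => by positivity) univ_nonempty)]
  calc _ ≤ ∑ _σ : Fin n → Bool, (1 / 2 ^ n : ℝ) * Real.exp (M g) :=
        sum_le_sum fun σ _ => mul_le_mul_of_nonneg_left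
          (Real.exp_le_exp.mpr (by simpa using H_le_M g σ)) (by positivity)
    _ = _ := by rw [← Finset.sum_mul]; simp

lemma abs_M_le (g : Edge n → ℝ) : |M g| ≤ ∑ e, |g e| := by
  refine abs_le.mpr ⟨?_, ?_⟩
  · exact (abs_le.mp (abs_H_le g fun _ => true)).1.trans (H_le_M g fun _ => true)
  · exact sup'_le univ_nonempty _ fun σ _ => (abs_le.mp (abs_H_le g σ)).2

lemma growth_of_le {f : (Edge n → ℝ) → ℝ} {A : ℝ} (hA : 0 ≤ A)
    (h : ∀ g, |f g| ≤ A * ∑ e, |g e|) : PolyGrowth f :=
  ⟨A, 1, fun g => (h g).trans (by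
    rw [pow_one]; exact mul_le_mul_of_nonneg_left (by linarith) hA)⟩

lemma growth_sq {f : (Edge n → ℝ) → ℝ} (h : PolyGrowth f) : PolyGrowth fun g => f g ^ 2 := by
  obtain ⟨A, m, hA⟩ := h
  refine ⟨A ^ 2, 2 * m, fun g => ?_⟩
  rw [abs_pow, mul_comm 2 m, pow_mul, ← mul_pow]
  exact pow_le_pow_left₀ (abs_nonneg _) (hA g) 2

end Vale.Agent.P146
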