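import Vale.Agent.P146.Basic

/-!
# A lower bound of linear order for the centred mean free energy

Only the couplings between two halves of the sites are kept; the others are removed by
Jensen's inequality, since their Gibbs mean changes sign with them.
-/

namespace Vale.Agent.P146

open MeasureTheory ProbabilityTheory Finset Real
open Vale.Agent.P150 (gauss PolyGrowth gauss_map_comp gauss_map_rowMap rowMap)

/-- The first half of the sites. -/
abbrev Lo (n : ℕ) := {i : Fin n // (i : ℕ) < n / 2}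

/-- The second half of the sites. -/
abbrev Hi (n : ℕ) := {i : Fin n // ¬ (i : ℕ) < n / 2}

variable {n : ℕ}

/-- The edge between a site of each half. -/
def ed (x : Lo n × Hi n) : Edge n :=
  ⟨(x.1.1, x.2.1), Fin.lt_def.mpr (lt_of_lt_of_le x.1.2 (not_lt.mp x.2.2))⟩

lemma ed_injective : Function.Injective (ed (n := n)) := by
  rintro ⟨a, b⟩ ⟨a', b'⟩ h
  simp only [ed, Subtype.mk.injEq, Prod.mk.injEq] at h
  exact Prod.ext (Subtype.ext h.1) (Subtype.ext h.2)

/-- The edges between the halves. -/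
def crossSet (n : ℕ) : Finset (Edge n) := univ.image ed

/-- One term of the Hamiltonian. -/
noncomputable def term (g : Edge n → ℝ) (s : Fin n → Bool) (e : Edge n) : ℝ :=
  (1 / √(n : ℝ)) * (g e * spin (s e.1.1) * spin (s e.1.2))

/-- The Hamiltonian between the halves. -/
noncomputable def Hc (g : Edge n → ℝ) (s : Fin n → Bool) : ℝ := ∑ e ∈ crossSet n, term g s e

/-- The remaining Hamiltonian. -/
noncomputable def Hr (g : Edge n → ℝ) (s : Fin n → Bool) : ℝ := ∑ e ∈ (crossSet n)ᶜ, term g s e

lemma Hc_add_Hr (g : Edge n → ℝ) (s : Fin n → Bool) : Hc g s + Hr g s = H g s := by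
  rw [Hc, Hr, sum_add_sum_compl, H, Finset.mul_sum]
  rfl

/-- The field at a site of the second half. -/
noncomputable def field (g : Edge n → ℝ) (a : Lo n → Bool) (j : Hi n) : ℝ :=
  ∑ i, (1 / √(n : ℝ)) * spin (a i) * g (ed (i, j))

/-- Reversing the couplings inside the halves. -/
def flip (g : Edge n → ℝ) (e : Edge n) : ℝ := if e ∈ crossSet n then g e else -g e

lemma flip_map : (gauss (Edge n)).map flip = gauss (Edge n) := by
  let φ : Edge n → ℝ → ℝ := fun e x => if e ∈ crossSet n then x else -x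
  have h : ∀ e, MeasurePreserving (φ e) (gaussianReal 0 1) (gaussianReal 0 1) := fun e => by
    by_cases he : e ∈ crossSet n
    · simp only [φ, if_pos he]; exact MeasurePreserving.id _
    · simp only [φ, if_neg he]
      exact ⟨measurable_neg, by simpa using gaussianReal_map_neg (μ := 0) (v := 1)⟩
  exact (MeasureTheory.measurePreserving_pi _ _ h).map_eq

/-- The Gibbs mean of the remaining couplings in the bipartite model. -/
noncomputable def rest (β : ℝ) (g : Edge n → ℝ) : ℝ :=
  (∑ s, Real.exp (β * Hc g s) * (β * Hr g s)) / ∑ s : Fin n → Bool, Real.exp (β * Hc g s)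

lemma rest_flip (β : ℝ) (g : Edge n → ℝ) : rest β (flip g) = -rest β g := by
  have hc : ∀ s, Hc (flip g) s = Hc g s := fun s =>
    sum_congr rfl fun e he => by simp [term, flip, he]
  have hr : ∀ s, Hr (flip g) s = -Hr g s := fun s => by
    rw [Hr, Hr, ← sum_neg_distrib]
    refine sum_congr rfl fun e he => ?_
    simp [term, flip, mem_compl.mp he]
  simp only [rest, hc, hr, mul_neg, sum_neg_distrib, neg_div]

lemma continuous_term (s : Fin n → Bool) (e : Edge n) : Continuous fun g => term g s e := by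
  unfold term; fun_prop

lemma continuous_rest (β : ℝ) : Continuous (rest (n := n) β) := by
  have hc : ∀ s, Continuous fun g : Edge n → ℝ => Hc g s := fun s =>
    continuous_finsetSum _ fun e _ => continuous_term s e
  have hr : ∀ s, Continuous fun g : Edge n → ℝ => Hr g s := fun s =>
    continuous_finsetSum _ fun e _ => continuous_term s e
  exact Continuous.div
    (continuous_finsetSum _ fun s _ =>
      (Real.continuous_exp.comp (continuous_const.mul (hc s))).mul (continuous_const.mul (hr s)))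
    (continuous_finsetSum _ fun s _ => Real.continuous_exp.comp (continuous_const.mul (hc s)))
    fun g => (sum_pos (fun s _ => Real.exp_pos _) univ_nonempty).ne'

lemma abs_term_le (g : Edge n → ℝ) (s : Fin n → Bool) (e : Edge n) : |term g s e| ≤ |g e| := by
  have h0 : 0 < n := lt_of_le_of_lt (Nat.zero_le _) e.1.1.2
  have h : |1 / √(n : ℝ)| ≤ 1 := by
    rw [abs_of_nonneg (by positivity), div_le_one (by positivity)]
    exact Real.one_le_sqrt.mpr (by exact_mod_cast h0)
  rw [term, abs_mul]
  exact (mul_le_of_le_one_left (abs_nonneg _) h).trans (by simp [abs_mul, abs_spin])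

lemma abs_rest_le (β : ℝ) (g : Edge n → ℝ) : |rest β g| ≤ |β| * ∑ e, |g e| := by
  have hd : 0 < ∑ s : Fin n → Bool, Real.exp (β * Hc g s) :=
    sum_pos (fun s _ => Real.exp_pos _) univ_nonempty
  rw [rest, abs_div, abs_of_pos hd, div_le_iff₀ hd, Finset.mul_sum univ (fun s => Real.exp _)]
  refine (abs_sum_le_sum_abs _ _).trans (sum_le_sum fun s _ => ?_)
  rw [abs_mul, abs_mul, abs_of_pos (Real.exp_pos _), mul_comm]
  refine mul_le_mul_of_nonneg_right (mul_le_mul_of_nonneg_left ?_ (abs_nonneg _)) (Real.exp_pos _).le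
  refine (abs_sum_le_sum_abs _ _).trans ((sum_le_sum fun e _ => abs_term_le g s e).trans ?_)
  exact sum_le_univ_sum_of_nonneg fun e => abs_nonneg _

lemma integral_rest (β : ℝ) : ∫ g, rest β g ∂gauss (Edge n) = 0 := by
  have hm : Measurable (flip (n := n)) := by
    refine measurable_pi_lambda _ fun e => ?_
    by_cases he : e ∈ crossSet n
    · simp only [flip, if_pos he]; exact measurable_pi_apply e
    · simp only [flip, if_neg he]; exact (measurable_pi_apply e).neg
  have h := integral_map (μ := gauss (Edge n)) (φ := flip) hm.aemeasurable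
    (f := rest β) (continuous_rest β).aestronglyMeasurable
  rw [flip_map] at h
  simp only [rest_flip, integral_neg] at h
  linarith

lemma log_cosh_ge {t : ℝ} (h0 : 0 ≤ t) (h1 : t < 1) (y : ℝ) :
    t * |y| - t ^ 2 ≤ Real.log (Real.cosh y) := by
  rw [Real.le_log_iff_exp_le (Real.cosh_pos y), ← Real.cosh_abs]
  set z := |y|
  have hp : 0 ≤ (1 + t) / 2 := by linarith
  have hq : 0 ≤ (1 - t) / 2 := by linarith
  have hsum : (1 + t) / 2 + (1 - t) / 2 = 1 := by ring
  have a1 : (0 : ℝ) < 1 + t := by linarith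
  have a2 : (0 : ℝ) < 1 - t := by linarith
  have h := Real.geom_mean_le_arith_mean2_weighted hp hq
    (div_nonneg (Real.exp_pos z).le a1.le) (div_nonneg (Real.exp_pos (-z)).le a2.le) hsum
  have hk := Real.geom_mean_le_arith_mean2_weighted hp hq a1.le a2.le hsum
  have hK : (1 + t) ^ ((1 + t) / 2) * (1 - t) ^ ((1 - t) / 2) ≤ Real.exp (t ^ 2) :=
    hk.trans (le_trans (by nlinarith) (Real.add_one_le_exp _))
  rw [Real.div_rpow (Real.exp_pos _).le a1.le, Real.div_rpow (Real.exp_pos _).le a2.le,
    div_mul_div_comm, ← Real.exp_mul, ← Real.exp_mul, ← Real.exp_add,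
    div_le_iff₀ (mul_pos (Real.rpow_pos_of_pos a1 _) (Real.rpow_pos_of_pos a2 _)),
    show z * ((1 + t) / 2) + -z * ((1 - t) / 2) = t * z by ring,
    show (1 + t) / 2 * (Real.exp z / (1 + t)) + (1 - t) / 2 * (Real.exp (-z) / (1 - t)) =
      Real.cosh z by rw [Real.cosh_eq]; field_simp] at h
  rw [Real.exp_sub, div_le_iff₀ (Real.exp_pos _)]
  exact h.trans (mul_le_mul_of_nonneg_left hK (Real.cosh_pos z).le)

lemma sum_exp_Hc (β : ℝ) (g : Edge n → ℝ) :
    ∑ s : Fin n → Bool, Real.exp (β * Hc g s) =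
      ∑ a : Lo n → Bool, ∏ j : Hi n, (2 * Real.cosh (β * field g a j)) := by
  set E := Equiv.piEquivPiSubtypeProd (fun i : Fin n => (i : ℕ) < n / 2) (fun _ => Bool)
  have key : ∀ x : (Lo n → Bool) × (Hi n → Bool),
      Real.exp (β * Hc g (E.symm x)) = ∏ j, Real.exp (β * field g x.1 j * spin (x.2 j)) := fun x => by
    rw [← Real.exp_sum, Hc, crossSet, sum_image fun p _ q _ h => ed_injective h,
      Fintype.sum_prod_type, sum_comm, Finset.mul_sum]
    refine congrArg Real.exp (sum_congr rfl fun j _ => ?_)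
    rw [field, Finset.mul_sum, Finset.mul_sum, Finset.sum_mul]
    refine sum_congr rfl fun i _ => ?_
    have e1 : E.symm x i.1 = x.1 i := by
      simp only [E, Equiv.piEquivPiSubtypeProd_symm_apply, dif_pos i.2]
    have e2 : E.symm x j.1 = x.2 j := by
      simp only [E, Equiv.piEquivPiSubtypeProd_symm_apply, dif_neg j.2]
    simp only [term, ed, e1, e2]
    ring
  rw [← E.symm.sum_comp, Fintype.sum_prod_type]
  refine sum_congr rfl fun a _ => ?_
  simp only [key]
  rw [← Fintype.prod_sum fun j b => Real.exp (β * field g a j * spin b)]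
  refine prod_congr rfl fun j _ => ?_
  rw [Fintype.sum_bool, Real.cosh_eq]
  simp [spin]; ring

/-- The pointwise lower bound. -/
lemma G_ge {t : ℝ} (ht : 0 ≤ t) (ht1 : t < 1) {β : ℝ} (hβ : 0 ≤ β) (g : Edge n → ℝ) :
    rest β g + ∑ a : Lo n → Bool, (1 / 2 ^ Fintype.card (Lo n) : ℝ) *
      ∑ j, (t * β * |field g a j| - t ^ 2) ≤ G β g := by
  set D := ∑ s : Fin n → Bool, Real.exp (β * Hc g s) with hD
  have hDpos : 0 < D := sum_pos (fun s _ => Real.exp_pos _) univ_nonempty
  have hJ : Real.exp (rest β g) * D ≤ ∑ s : Fin n → Bool, Real.exp (β * H g s) := by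
    have h := convexOn_exp.map_sum_le (t := univ) (w := fun s => Real.exp (β * Hc g s) / D)
      (p := fun s => β * Hr g s) (fun s _ => by positivity)
      (by rw [← Finset.sum_div, div_self hDpos.ne']) (fun _ _ => Set.mem_univ _)
    simp only [smul_eq_mul] at h
    rw [← le_div_iff₀ hDpos, Finset.sum_div]
    refine le_trans (le_of_eq ?_) (h.trans (le_of_eq (sum_congr rfl fun s _ => ?_)))
    · rw [rest, Finset.sum_div]
      exact congrArg Real.exp (sum_congr rfl fun s _ => by ring)
    · rw [div_mul_eq_mul_div, ← Real.exp_add, ← mul_add, Hc_add_Hr]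
  have h1 : rest β g + Real.log D ≤ F β g := by
    rw [← Real.log_exp (rest β g), ← Real.log_mul (Real.exp_pos _).ne' hDpos.ne']
    exact Real.log_le_log (by positivity) hJ
  have hw : ∑ _a : Lo n → Bool, (1 / 2 ^ Fintype.card (Lo n) : ℝ) = 1 := by simp
  set X : (Lo n → Bool) → ℝ := fun a => ∏ j : Hi n, Real.cosh (β * field g a j)
  have hX : ∀ a, 0 < X a := fun a => prod_pos fun j _ => Real.cosh_pos _
  have hcard : Fintype.card (Lo n) + Fintype.card (Hi n) = n := by
    rw [← Fintype.card_sum, Fintype.card_congr (Equiv.sumCompl fun i : Fin n => (i : ℕ) < n / 2),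
      Fintype.card_fin]
  have hD2 : D = 2 ^ n * ∑ a : Lo n → Bool, (1 / 2 ^ Fintype.card (Lo n) : ℝ) * X a := by
    rw [hD, sum_exp_Hc, Finset.mul_sum]
    refine sum_congr rfl fun a _ => ?_
    rw [prod_mul_distrib, prod_const, card_univ,
      show (2 : ℝ) ^ n = 2 ^ Fintype.card (Lo n) * 2 ^ Fintype.card (Hi n) by rw [← pow_add, hcard]]
    simp only [X]
    field_simp
  have hsum : 0 < ∑ a : Lo n → Bool, (1 / 2 ^ Fintype.card (Lo n) : ℝ) * X a :=
    sum_pos (fun a _ => mul_pos (by positivity) (hX a)) univ_nonempty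
  rw [hD2, Real.log_mul (by positivity) hsum.ne', Real.log_pow] at h1
  have h2 : ∑ a : Lo n → Bool, (1 / 2 ^ Fintype.card (Lo n) : ℝ) * Real.log (X a) ≤
      Real.log (∑ a : Lo n → Bool, (1 / 2 ^ Fintype.card (Lo n) : ℝ) * X a) := by
    have h := strictConcaveOn_log_Ioi.concaveOn.le_map_sum (t := univ)
      (w := fun _ : Lo n → Bool => (1 / 2 ^ Fintype.card (Lo n) : ℝ)) (p := X)
      (fun _ _ => by positivity) hw fun a _ => hX a
    simpa only [smul_eq_mul] using h
  have h3 : ∀ a, ∑ j, (t * β * |field g a j| - t ^ 2) ≤ Real.log (X a) := fun a => by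
    simp only [X]
    rw [Real.log_prod fun j _ => (Real.cosh_pos _).ne']
    refine sum_le_sum fun j _ => ?_
    have := log_cosh_ge ht ht1 (β * field g a j)
    rwa [abs_mul, abs_of_nonneg hβ, ← mul_assoc] at this
  have h4 := sum_le_sum (s := univ) fun a _ => mul_le_mul_of_nonneg_left (h3 a)
    (show (0 : ℝ) ≤ 1 / 2 ^ Fintype.card (Lo n) by positivity)
  rw [G]
  linarith

/-- `E|X|` for a standard Gaussian. -/
noncomputable def gamma1 : ℝ := ∫ x, |x| ∂gaussianReal 0 1

lemma integrable_abs_gauss : Integrable (fun x : ℝ => |x|) (gaussianReal 0 1) := by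
  have h := memLp_id_gaussianReal (μ := 0) (v := 1) 1
  exact ((memLp_one_iff_integrable.mp (by simpa using h)).abs :)

lemma gamma1_pos : 0 < gamma1 := by
  refine lt_of_le_of_ne (integral_nonneg fun x => abs_nonneg x) fun h => ?_
  have h0 := (integral_eq_zero_iff_of_nonneg (fun x => abs_nonneg x) integrable_abs_gauss).mp h.symm
  have := nullSingletonClass_gaussianReal (μ := (0 : ℝ)) (v := 1) one_ne_zero
  have h1 : ∀ᵐ x ∂gaussianReal 0 1, x ≠ 0 := by
    rw [ae_iff]; simp
  obtain ⟨x, hx, hx'⟩ := (h0.and h1).exists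
  exact hx' (abs_eq_zero.mp hx)

lemma integral_abs_field (hn : 2 ≤ n) (a : Lo n → Bool) (j : Hi n) :
    ∫ g, |field g a j| ∂gauss (Edge n) =
      √(Fintype.card (Lo n) : ℝ) / √(n : ℝ) * gamma1 := by
  set k := Fintype.card (Lo n)
  have hk : 0 < k := Fintype.card_pos_iff.mpr ⟨⟨⟨0, by omega⟩, by simp; omega⟩⟩
  have hn0 : 0 < √(n : ℝ) := Real.sqrt_pos.mpr (by exact_mod_cast lt_of_lt_of_le two_pos hn)
  have hk0 : 0 < √(k : ℝ) := Real.sqrt_pos.mpr (by exact_mod_cast hk)
  let R : Unit → Lo n → ℝ := fun _ i => spin (a i) / √(k : ℝ)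
  have hR : ∀ u v : Unit, ∑ i, R u i * R v i = if u = v then (1 : ℝ) else 0 := fun u v => by
    have hu : u = v := rfl
    rw [if_pos hu]
    simp only [R, ← pow_two, div_pow, spin_sq, Real.sq_sqrt (Nat.cast_nonneg k)]
    rw [sum_const, card_univ, nsmul_eq_mul, mul_one_div]
    exact div_self (by exact_mod_cast hk.ne')
  let φ : Lo n → Edge n := fun i => ed (i, j)
  have hφ : Function.Injective φ := fun i i' h => (Prod.ext_iff.mp (ed_injective h)).1
  let ρ : (Edge n → ℝ) → Lo n → ℝ := fun g i => g (φ i)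
  have hρ : Measurable ρ := measurable_pi_lambda _ fun i => measurable_pi_apply _
  have hlaw : (gauss (Edge n)).map (fun g => rowMap R (ρ g) ()) = gaussianReal 0 1 := by
    rw [show (fun g => rowMap R (ρ g) ()) = (fun f : Unit → ℝ => f ()) ∘ (rowMap R ∘ ρ) from rfl,
      ← Measure.map_map (measurable_pi_apply ()) ((Vale.Agent.P150.measurable_rowMap R).comp hρ),
      ← Measure.map_map (Vale.Agent.P150.measurable_rowMap R) hρ,
      gauss_map_comp φ hφ, gauss_map_rowMap R hR]
    exact (measurePreserving_eval _ ()).map_eq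
  have e : ∀ g, |field g a j| = √(k : ℝ) / √(n : ℝ) * |rowMap R (ρ g) ()| := fun g => by
    rw [← abs_of_pos (div_pos hk0 hn0), ← abs_mul]
    congr 1
    simp only [field, rowMap, R, ρ, φ, Finset.mul_sum]
    exact sum_congr rfl fun i _ => by field_simp
  simp_rw [e]
  have hm : Measurable fun g : Edge n → ℝ => rowMap R (ρ g) () :=
    (measurable_pi_apply ()).comp ((Vale.Agent.P150.measurable_rowMap R).comp hρ)
  rw [integral_const_mul, gamma1, ← hlaw, integral_map hm.aemeasurable
    continuous_abs.aestronglyMeasurable]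

lemma card_Lo : Fintype.card (Lo n) = n / 2 := by
  refine Eq.trans ?_ (Fintype.card_fin (n / 2))
  exact Fintype.card_congr
    ⟨fun i => ⟨i.1, i.2⟩, fun j => ⟨⟨j, by omega⟩, j.2⟩, fun i => rfl, fun j => rfl⟩

lemma card_Hi : Fintype.card (Hi n) = n - n / 2 := by
  rw [Fintype.card_subtype_compl, Fintype.card_fin, card_Lo]

/-- The mean centred free energy is at least `c β n`, uniformly. -/
theorem exists_mean_ge : ∃ c : ℝ, 0 < c ∧ ∀ n : ℕ, 2 ≤ n → ∀ β : ℝ, 1 ≤ β →
    c * β * n ≤ ∫ g, G β g ∂gauss (Edge n) := by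
  have hγ := gamma1_pos
  set t := min (1 / 2) (gamma1 / 4) with hdef
  have ht : 0 < t := lt_min (by norm_num) (by linarith)
  have ht1 : t < 1 := lt_of_le_of_lt (min_le_left _ _) (by norm_num)
  refine ⟨t * gamma1 / 8, by positivity, fun n hn β hβ => ?_⟩
  have hβ0 : 0 ≤ β := by linarith
  have hGi : Integrable (G β) (gauss (Edge n)) :=
    (growth_of_le (abs_nonneg β) (abs_G_le β)).integrable (continuous_G β)
  have hWi : Integrable (rest β) (gauss (Edge n)) :=
    (growth_of_le (abs_nonneg β) (abs_rest_le β)).integrable (continuous_rest β)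
  have hfi : ∀ a j, Integrable (fun g : Edge n → ℝ => |field g a j|) (gauss (Edge n)) := fun a j => by
    refine PolyGrowth.integrable (growth_of_le zero_le_one fun g => ?_)
      (Continuous.abs (by unfold field; fun_prop))
    rw [abs_abs, one_mul, field]
    refine (abs_sum_le_sum_abs _ _).trans ?_
    have h1 : |1 / √(n : ℝ)| ≤ 1 := by
      rw [abs_of_nonneg (by positivity), div_le_one (by positivity)]
      exact Real.one_le_sqrt.mpr (by exact_mod_cast le_trans one_le_two hn)
    refine (sum_le_sum fun i _ => (le_of_eq (abs_mul _ _)).trans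
      (mul_le_of_le_one_left (abs_nonneg (g (ed (i, j)))) (by rw [abs_mul, abs_spin, mul_one]; exact h1))).trans ?_
    rw [← sum_image (f := fun e => |g e|) (g := fun i => ed (i, j))
      fun i _ i' _ h => (Prod.ext_iff.mp (ed_injective h)).1]
    exact sum_le_univ_sum_of_nonneg fun e => abs_nonneg _
  have hji : ∀ a j, Integrable (fun g : Edge n → ℝ => t * β * |field g a j| - t ^ 2) (gauss (Edge n)) :=
    fun a j => ((hfi a j).const_mul _).sub (integrable_const _)
  have hai : ∀ a, Integrable (fun g : Edge n → ℝ => (1 / 2 ^ Fintype.card (Lo n) : ℝ) *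
      ∑ j, (t * β * |field g a j| - t ^ 2)) (gauss (Edge n)) :=
    fun a => (integrable_finsetSum _ fun j _ => hji a j).const_mul _
  have hsi : Integrable (fun g : Edge n → ℝ => ∑ a : Lo n → Bool,
      (1 / 2 ^ Fintype.card (Lo n) : ℝ) * ∑ j, (t * β * |field g a j| - t ^ 2)) (gauss (Edge n)) :=
    integrable_finsetSum _ fun a _ => hai a
  refine le_trans ?_ (integral_mono (hWi.add hsi) hGi fun g => G_ge ht.le ht1 hβ0 g)
  simp only [Pi.add_apply]
  rw [integral_add hWi hsi, integral_rest, zero_add, integral_finsetSum _ fun a _ => hai a]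
  have e : ∀ a : Lo n → Bool, ∫ g, (1 / 2 ^ Fintype.card (Lo n) : ℝ) *
      ∑ j, (t * β * |field g a j| - t ^ 2) ∂gauss (Edge n) =
      (1 / 2 ^ Fintype.card (Lo n) : ℝ) * ((n - n / 2 : ℕ) *
        (t * β * (√((n / 2 : ℕ) : ℝ) / √(n : ℝ) * gamma1) - t ^ 2)) := fun a => by
    rw [integral_const_mul, integral_finsetSum _ fun j _ => hji a j]
    refine congrArg _ ?_
    rw [sum_congr rfl fun j _ => (integral_sub ((hfi a j).const_mul (t * β)) (integrable_const (t ^ 2))).trans
      (by rw [integral_const_mul, integral_abs_field hn, card_Lo]),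
      sum_const, card_univ, card_Hi, nsmul_eq_mul]
    simp
  rw [sum_congr rfl fun a _ => e a, ← Finset.sum_mul,
    show ∑ _a : Lo n → Bool, (1 / 2 ^ Fintype.card (Lo n) : ℝ) = 1 by simp, one_mul]
  have hn' : (0 : ℝ) < n := by exact_mod_cast lt_of_lt_of_le two_pos hn
  have hhalf : (n : ℝ) / 2 ≤ ((n - n / 2 : ℕ) : ℝ) := by
    rw [div_le_iff₀ two_pos]
    exact_mod_cast show n ≤ (n - n / 2) * 2 by omega
  have hroot : 1 / 2 ≤ √((n / 2 : ℕ) : ℝ) / √(n : ℝ) := by
    rw [← Real.sqrt_div (Nat.cast_nonneg _), show (1 : ℝ) / 2 = √(1 / 4) by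
      rw [show (1 : ℝ) / 4 = (1 / 2) ^ 2 by norm_num, Real.sqrt_sq (by norm_num)]]
    refine Real.sqrt_le_sqrt ?_
    rw [le_div_iff₀ hn']
    have : ((n : ℕ) : ℝ) ≤ ((4 * (n / 2) : ℕ) : ℝ) := by exact_mod_cast (by omega : n ≤ 4 * (n / 2))
    push_cast at this; linarith
  have ht4 : t ≤ gamma1 / 4 := min_le_right _ _
  have hin : t * β * gamma1 / 4 ≤ t * β * (√((n / 2 : ℕ) : ℝ) / √(n : ℝ) * gamma1) - t ^ 2 := by
    have h1 := mul_le_mul_of_nonneg_left (mul_le_mul_of_nonneg_right hroot hγ.le)
      (mul_nonneg ht.le hβ0)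
    have h2 : t * t ≤ t * (β * (gamma1 / 4)) := by
      refine mul_le_mul_of_nonneg_left ?_ ht.le
      nlinarith
    nlinarith
  calc t * gamma1 / 8 * β * n = n / 2 * (t * β * gamma1 / 4) := by ring
    _ ≤ _ := mul_le_mul hhalf hin (by positivity) (Nat.cast_nonneg _)

end Vale.Agent.P146
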