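import Vale.Agent.P146.Basic

/-!
# Scaling the disorder as a change of measure

Multiplying the disorder by `1 + 1/(2n)` has bounded chi-square cost, so a functional whose
mean moves by `Δ` under this scaling has variance at least `Δ²`.
-/

namespace Vale.Agent.P146

open MeasureTheory ProbabilityTheory Finset Real
open Vale.Agent.P150 (gauss PolyGrowth)
open scoped ENNReal NNReal

/-- Density of the law of `s X` with respect to the law of a standard Gaussian `X`. -/
noncomputable def rho (s x : ℝ) : ℝ := s⁻¹ * Real.exp (x ^ 2 / 2 * (1 - (s ^ 2)⁻¹))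

lemma rho_pos {s : ℝ} (hs : 0 < s) (x : ℝ) : 0 < rho s x := by unfold rho; positivity

lemma continuous_rho (s : ℝ) : Continuous (rho s) := by unfold rho; fun_prop

lemma gauss_map_mul {s : ℝ} (hs : 0 < s) :
    (gaussianReal 0 1).map (s * ·) =
      (gaussianReal 0 1).withDensity fun x => ENNReal.ofReal (rho s x) := by
  have hv : (NNReal.mk (s ^ 2) (sq_nonneg s) * 1 : ℝ≥0) ≠ 0 := by
    rw [mul_one, ne_eq, ← NNReal.coe_eq_zero]; simp [hs.ne']
  rw [gaussianReal_map_const_mul, mul_zero, gaussianReal_of_var_ne_zero 0 hv,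
    gaussianReal_of_var_ne_zero 0 one_ne_zero,
    ← withDensity_mul volume (by fun_prop) ((continuous_rho s).measurable.ennreal_ofReal)]
  congr 1
  funext x
  simp only [gaussianPDF, Pi.mul_apply]
  rw [← ENNReal.ofReal_mul (gaussianPDFReal_nonneg _ _ _)]
  congr 1
  simp only [gaussianPDFReal, rho, mul_one, NNReal.coe_one, NNReal.coe_mk, sub_zero]
  rw [Real.sqrt_mul (by positivity) (s ^ 2), Real.sqrt_sq hs.le, mul_mul_mul_comm, ← Real.exp_add,
    mul_inv]
  congr 1
  congr 1
  field_simp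
  ring

lemma integrable_rho_of {s : ℝ} (hs : 0 < s) {k : ℕ} (hk : (k : ℝ) * (1 - (s ^ 2)⁻¹) < 1) :
    Integrable (fun x => rho s x ^ k) (gaussianReal 0 1) := by
  rw [gaussianReal_of_var_ne_zero 0 one_ne_zero, integrable_withDensity_iff (by fun_prop)
    (ae_of_all _ fun _ => by simp [gaussianPDF])]
  have hb : 0 < (1 - (k : ℝ) * (1 - (s ^ 2)⁻¹)) / 2 := by linarith
  refine ((integrable_exp_neg_mul_sq hb).const_mul ((s⁻¹) ^ k * (√(2 * π))⁻¹)).congr
    (ae_of_all _ fun x => ?_)
  simp only [gaussianPDF]; rw [ENNReal.toReal_ofReal (gaussianPDFReal_nonneg _ _ _)]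
  simp only [rho, gaussianPDFReal, NNReal.coe_one, mul_one, sub_zero, mul_pow, ← Real.exp_nat_mul]
  rw [mul_mul_mul_comm, ← Real.exp_add]
  ring_nf

lemma integral_rho_sq {s : ℝ} (hs : 0 < s) :
    ∫ x, rho s x ^ 2 ∂gaussianReal 0 1 = (s * √(2 - s ^ 2))⁻¹ := by
  rw [integral_gaussianReal_eq_integral_smul one_ne_zero]
  have e : ∀ x : ℝ, gaussianPDFReal 0 1 x • rho s x ^ 2 =
      (s⁻¹ ^ 2 * (√(2 * π))⁻¹) * Real.exp (-(((s ^ 2)⁻¹ * (2 - s ^ 2)) / 2) * x ^ 2) := fun x => by
    simp only [smul_eq_mul, gaussianPDFReal, rho, NNReal.coe_one, mul_one, sub_zero, mul_pow,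
      ← Real.exp_nat_mul]
    rw [mul_mul_mul_comm, ← Real.exp_add]
    rw [show (s⁻¹ ^ 2) * (√(2 * π))⁻¹ = (√(2 * π))⁻¹ * s⁻¹ ^ 2 by ring]
    congr 2
    field_simp
    push_cast
    ring
  simp_rw [e]
  rw [integral_const_mul, integral_gaussian]
  have h1 : π / (((s ^ 2)⁻¹ * (2 - s ^ 2)) / 2) = (2 * π) * (s ^ 2 / (2 - s ^ 2)) := by
    field_simp
  rw [h1, Real.sqrt_mul (show (0 : ℝ) ≤ 2 * π by positivity),
    Real.sqrt_div (sq_nonneg s), Real.sqrt_sq hs.le]
  have : √(2 * π) ≠ 0 := (Real.sqrt_pos.mpr (by positivity)).ne'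
  field_simp

variable {ι : Type*} [Fintype ι]

/-- The density of the law of `s g` with respect to the law of `g`. -/
noncomputable def lik (s : ℝ) (g : ι → ℝ) : ℝ := ∏ e, rho s (g e)

lemma measurable_lik (s : ℝ) : Measurable (lik (ι := ι) s) :=
  (continuous_finsetProd _ fun e _ => (continuous_rho s).comp (continuous_apply e)).measurable

lemma gauss_map_smul {s : ℝ} (hs : 0 < s) :
    (gauss ι).map (s • ·) = (gauss ι).withDensity fun g => ENNReal.ofReal (lik s g) := by
  have hr : Integrable (fun x => rho s x) (gaussianReal 0 1) := by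
    simpa using integrable_rho_of hs (k := 1) (by
      have : 0 < (s ^ 2)⁻¹ := by positivity
      push_cast; linarith)
  have hmap : (gauss ι).map (s • ·) = Measure.pi fun _ : ι => (gaussianReal 0 1).map (s * ·) := by
    have : IsProbabilityMeasure ((gaussianReal 0 1).map (s * ·)) :=
      Measure.isProbabilityMeasure_map (by fun_prop)
    exact (MeasureTheory.measurePreserving_pi _ _ fun _ : ι =>
      ⟨measurable_const_mul s, rfl⟩).map_eq
  have : IsProbabilityMeasure ((gaussianReal 0 1).map (s * ·)) :=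
    Measure.isProbabilityMeasure_map (by fun_prop)
  rw [hmap]
  refine Measure.pi_eq fun t ht => ?_
  have hbox : MeasurableSet (Set.univ.pi t) := MeasurableSet.univ_pi ht
  have hL : Integrable (lik s) (gauss ι) := Integrable.fintype_prod fun _ => hr
  rw [withDensity_apply _ hbox, ← ofReal_integral_eq_lintegral_ofReal hL.restrict
    (ae_of_all _ fun g => prod_nonneg fun e _ => (rho_pos hs _).le)]
  rw [gauss, Measure.restrict_pi_pi, gauss_map_mul hs]
  simp only [lik]
  rw [integral_fintype_prod_eq_prod, ENNReal.ofReal_prod_of_nonneg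
    fun i _ => integral_nonneg fun x => (rho_pos hs x).le]
  refine prod_congr rfl fun i _ => ?_
  rw [withDensity_apply _ (ht i), ofReal_integral_eq_lintegral_ofReal hr.restrict
    (ae_of_all _ fun x => (rho_pos hs x).le)]

lemma integral_smul_arg {s : ℝ} (hs : 0 < s) {f : (ι → ℝ) → ℝ} (hf : Continuous f) :
    ∫ g, f (s • g) ∂gauss ι = ∫ g, lik s g * f g ∂gauss ι := by
  rw [← integral_map (φ := (s • ·)) (by fun_prop) hf.aestronglyMeasurable, gauss_map_smul hs,
    integral_withDensity_eq_integral_toReal_smul (measurable_lik s).ennreal_ofReal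
      (ae_of_all _ fun _ => ENNReal.ofReal_lt_top)]
  refine integral_congr_ae (ae_of_all _ fun g => ?_)
  simp only [smul_eq_mul, ENNReal.toReal_ofReal (prod_nonneg fun e _ => (rho_pos hs (g e)).le), lik]

/-- The scaling factor. -/
noncomputable def sfac (n : ℕ) : ℝ := 1 + 1 / (2 * n)

lemma sfac_facts {n : ℕ} (hn : 2 ≤ n) :
    1 ≤ sfac n ∧ sfac n ^ 2 - 1 ≤ 9 / 8 / n ∧ sfac n ^ 2 - 1 ≤ 9 / 16 := by
  have hn' : (2 : ℝ) ≤ n := by exact_mod_cast hn
  have h0 : 0 ≤ 1 / (2 * (n : ℝ)) := by positivity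
  have e : sfac n ^ 2 - 1 = 1 / n * (1 + 1 / (4 * n)) := by simp only [sfac]; field_simp; ring
  have h1 : 1 / (4 * (n : ℝ)) ≤ 1 / 8 := one_div_le_one_div_of_le (by norm_num) (by linarith)
  have h2 : 1 / (n : ℝ) ≤ 1 / 2 := one_div_le_one_div_of_le (by norm_num) hn'
  refine ⟨by simp only [sfac]; linarith, ?_, ?_⟩
  · rw [e, show (9 : ℝ) / 8 / n = 1 / n * (1 + 1 / 8) by ring]
    exact mul_le_mul_of_nonneg_left (by linarith) (by positivity)
  · rw [e]; nlinarith [show 0 ≤ 1 / (4 * (n : ℝ)) by positivity, show 0 ≤ 1 / (n : ℝ) by positivity]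

lemma lik_sq_le {n : ℕ} (hn : 2 ≤ n) :
    MemLp (lik (ι := Edge n) (sfac n)) 2 (gauss (Edge n)) ∧
      ∫ g, lik (sfac n) g ^ 2 ∂gauss (Edge n) ≤ 2 := by
  obtain ⟨hs1, hd, hd'⟩ := sfac_facts hn
  set s := sfac n
  have hs : 0 < s := by linarith
  have hk : ((2 : ℕ) : ℝ) * (1 - (s ^ 2)⁻¹) < 1 := by
    have : 1 / 2 < (s ^ 2)⁻¹ := by
      rw [one_div]; exact inv_strictAnti₀ (by positivity) (by linarith)
    push_cast; linarith
  have hint : Integrable (fun g : Edge n → ℝ => lik s g ^ 2) (gauss (Edge n)) := by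
    simp only [lik, ← Finset.prod_pow]
    exact Integrable.fintype_prod fun _ => integrable_rho_of hs hk
  refine ⟨(memLp_two_iff_integrable_sq (measurable_lik s).aestronglyMeasurable).mpr hint, ?_⟩
  simp only [lik, ← Finset.prod_pow]
  rw [gauss, integral_fintype_prod_eq_prod (fun (_ : Edge n) x => rho s x ^ 2), integral_rho_sq hs,
    prod_const, card_univ]
  set δ := s ^ 2 - 1
  have hδ0 : 0 ≤ δ := by simp only [δ]; nlinarith
  have hδ2 : δ ^ 2 ≤ 81 / 256 := by nlinarith
  have hsq : ((s * √(2 - s ^ 2))⁻¹) ^ 2 = (1 - δ ^ 2)⁻¹ := by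
    rw [inv_pow, mul_pow, Real.sq_sqrt (by simp only [δ] at hd'; linarith)]
    congr 1; ring
  have hexp : (1 - δ ^ 2)⁻¹ ≤ Real.exp (256 / 175 * δ ^ 2) := by
    refine le_trans ?_ (Real.add_one_le_exp _)
    rw [inv_le_iff_one_le_mul₀ (by linarith)]
    nlinarith
  set m := Fintype.card (Edge n)
  have hm : (m : ℝ) ≤ (n : ℝ) ^ 2 / 2 := by
    have h2 : 2 * m ≤ n * n := by
      have : (univ.filter fun p : Fin n × Fin n => p.1 < p.2).card +
          (univ.filter fun p : Fin n × Fin n => p.2 < p.1).card ≤ n * n := by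
        rw [← card_union_of_disjoint (disjoint_filter.mpr fun p _ h h' => lt_asymm h h')]
        exact (card_le_univ _).trans (by simp)
      have e : (univ.filter fun p : Fin n × Fin n => p.2 < p.1).card =
          (univ.filter fun p : Fin n × Fin n => p.1 < p.2).card :=
        card_bij (fun p _ => p.swap) (by simp) (by simp)
          fun p hp => ⟨p.swap, by simpa using hp, by simp⟩
      rw [e] at this
      simp only [m, Fintype.card_subtype]
      omega
    have : ((2 * m : ℕ) : ℝ) ≤ ((n * n : ℕ) : ℝ) := by exact_mod_cast h2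
    push_cast at this; linarith
  have hpos : 0 ≤ ((s * √(2 - s ^ 2))⁻¹) ^ m := by positivity
  refine (pow_le_pow_iff_left₀ hpos (by norm_num) two_ne_zero).mp ?_
  rw [← pow_mul, mul_comm m 2, pow_mul, hsq]
  refine (pow_le_pow_left₀ (inv_nonneg.mpr (by linarith)) hexp m).trans ?_
  rw [← Real.exp_nat_mul, ← Real.exp_log (show (0 : ℝ) < 2 ^ 2 by norm_num)]
  refine Real.exp_le_exp.mpr ?_
  rw [Real.log_pow]
  have hlog := Real.log_two_gt_d9
  have hnd : (n : ℝ) ^ 2 * δ ^ 2 ≤ 81 / 64 := by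
    have hn0 : (0 : ℝ) < n := by positivity
    have : (n : ℝ) * δ ≤ 9 / 8 := by rw [le_div_iff₀ hn0] at hd; linarith
    rw [← mul_pow]; nlinarith [mul_nonneg hn0.le hδ0]
  have hmd := mul_le_mul_of_nonneg_right hm (show 0 ≤ 256 / 175 * δ ^ 2 by positivity)
  push_cast
  linarith

/-- A functional whose mean moves by `Δ` under the scaling has variance at least `Δ²`. -/
theorem sq_shift_le_variance {n : ℕ} (hn : 2 ≤ n) {f : (Edge n → ℝ) → ℝ} (hc : Continuous f)
    (hf : PolyGrowth f) :
    (∫ g, f (sfac n • g) ∂gauss (Edge n) - ∫ g, f g ∂gauss (Edge n)) ^ 2 ≤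
      variance f (gauss (Edge n)) := by
  have hs : 0 < sfac n := by linarith [(sfac_facts hn).1]
  obtain ⟨hL, hL2⟩ := lik_sq_le hn
  set L := lik (ι := Edge n) (sfac n)
  set μ := gauss (Edge n)
  have hL1 : ∫ g, L g ∂μ = 1 := by
    simpa using (integral_smul_arg (ι := Edge n) hs (f := fun _ => (1 : ℝ)) continuous_const).symm
  have hf2 : MemLp f 2 μ := (memLp_two_iff_integrable_sq hc.aestronglyMeasurable).mpr
    ((growth_sq hf).integrable (hc.pow 2))
  have hfL : Integrable (fun g => L g * f g) μ := hL.integrable_mul hf2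
  have hfi : Integrable f μ := hf.integrable hc
  have hLi : Integrable L μ := hL.integrable one_le_two
  rw [integral_smul_arg hs hc, variance_eq_integral hc.measurable.aemeasurable]
  set m := ∫ g, f g ∂μ
  set Δ := ∫ g, L g * f g ∂μ - m
  have hX : MemLp (fun g => f g - m) 2 μ := hf2.sub (memLp_const m)
  have hY : MemLp (fun g => L g - 1) 2 μ := hL.sub (memLp_const 1)
  have iX := hX.integrable_sq
  have iY := hY.integrable_sq
  have iXY : Integrable (fun g => (f g - m) * (L g - 1)) μ := hX.integrable_mul hY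
  have eXY : ∫ g, (f g - m) * (L g - 1) ∂μ = Δ := by
    have e : ∀ g, (f g - m) * (L g - 1) = (L g * f g - f g) - m * (L g - 1) := fun g => by ring
    simp_rw [e]
    have i1 : Integrable (fun g => L g * f g - f g) μ := hfL.sub hfi
    have i2 : Integrable (fun g => m * (L g - 1)) μ := (hLi.sub (integrable_const 1)).const_mul m
    rw [integral_sub i1 i2, integral_sub hfL hfi, integral_const_mul,
      integral_sub hLi (integrable_const 1), hL1]
    simp [Δ, m]
  have eY : ∫ g, (L g - 1) ^ 2 ∂μ ≤ 1 := by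
    have e : ∀ g, (L g - 1) ^ 2 = L g ^ 2 - (2 * L g - 1) := fun g => by ring
    simp_rw [e]
    have i1 : Integrable (fun g => 2 * L g - 1) μ := (hLi.const_mul 2).sub (integrable_const 1)
    rw [integral_sub hL.integrable_sq i1,
      integral_sub (hLi.const_mul 2) (integrable_const 1), integral_const_mul, hL1]
    simp only [integral_const, probReal_univ, smul_eq_mul, mul_one]
    linarith
  have key : 0 ≤ ∫ g, ((f g - m) - Δ * (L g - 1)) ^ 2 ∂μ :=
    integral_nonneg fun g => sq_nonneg _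
  have e : ∀ g, ((f g - m) - Δ * (L g - 1)) ^ 2 =
      ((f g - m) ^ 2 - 2 * Δ * ((f g - m) * (L g - 1))) + Δ ^ 2 * (L g - 1) ^ 2 := fun g => by ring
  simp_rw [e] at key
  have k1 : Integrable (fun g => (f g - m) ^ 2 - 2 * Δ * ((f g - m) * (L g - 1))) μ :=
    iX.sub (iXY.const_mul _)
  rw [integral_add k1 (iY.const_mul _), integral_sub iX (iXY.const_mul _), integral_const_mul,
    integral_const_mul, eXY] at key
  nlinarith [mul_le_mul_of_nonneg_left eY (sq_nonneg Δ)]

end Vale.Agent.P146
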